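import Vale.Agent.P359.Upper.Defs

/-!
# P359: the Laughlin coefficients and their pair contractions
-/

noncomputable section

open Function Equiv

namespace Vale.Agent.P359.Upper

variable {m Q : ℕ}

/-- The exponent of particle `i` in the term `(σ, τ, ρ)` of the cubed Vandermonde determinant,
shifted by three. -/
def expo (σ τ ρ : Perm (Fin m)) (i : Fin m) : ℕ := (σ i : ℕ) + τ i + ρ i + 3

/-- Monomial coefficient of `∏ x_i^3 * ∏_(i<j) (x_i - x_j)^3`, up to one global sign. -/
def coef (k : Orbs m Q) : ℝ :=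
  ∑ σ : Perm (Fin m), ∑ τ : Perm (Fin m), ∑ ρ : Perm (Fin m),
    if ∀ i, (k i : ℕ) = expo σ τ ρ i then
      ((σ.sign : ℤ) : ℝ) * ((τ.sign : ℤ) : ℝ) * ((ρ.sign : ℤ) : ℝ) else 0

/-- The shifted Laughlin vector in normalised orbitals. -/
def core (k : Orbs m Q) : ℝ := coef k / √(∏ i, (Q.choose (k i : ℕ) : ℝ))

lemma coef_perm (e : Perm (Fin m)) (k : Orbs m Q) :
    coef (k ∘ e) = ((e.sign : ℤ) : ℝ) * coef k := by
  unfold coef
  simp only [Finset.mul_sum]
  rw [← Equiv.sum_comp (Equiv.mulRight e)]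
  refine Finset.sum_congr rfl fun σ _ => ?_
  rw [← Equiv.sum_comp (Equiv.mulRight e)]
  refine Finset.sum_congr rfl fun τ _ => ?_
  rw [← Equiv.sum_comp (Equiv.mulRight e)]
  refine Finset.sum_congr rfl fun ρ _ => ?_
  have h : (∀ i, ((k ∘ e) i : ℕ) = expo (σ * e) (τ * e) (ρ * e) i)
      ↔ ∀ i, (k i : ℕ) = expo σ τ ρ i := by
    simp only [comp_apply, expo, Perm.coe_mul]
    exact e.forall_congr_right (q := fun i => (k i : ℕ) = (σ i : ℕ) + τ i + ρ i + 3)
  simp only [Equiv.coe_mulRight, h, Perm.sign_mul]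
  split_ifs with hc
  · rcases Int.units_eq_one_or e.sign with he | he <;> simp [he]
  · simp

lemma core_perm (e : Perm (Fin m)) (k : Orbs m Q) :
    core (k ∘ e) = ((e.sign : ℤ) : ℝ) * core k := by
  rw [core, core, coef_perm, mul_div_assoc]
  congr 2
  congr 1
  exact Equiv.prod_comp e fun i => (Q.choose (k i : ℕ) : ℝ)

lemma sum_expo (σ τ ρ : Perm (Fin m)) :
    ∑ i, expo σ τ ρ i = 3 * ∑ i : Fin m, ((i : ℕ) + 1) := by
  have h : ∀ π : Perm (Fin m), ∑ i, (π i : ℕ) = ∑ i : Fin m, (i : ℕ) :=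
    fun π => Equiv.sum_comp π fun i => (i : ℕ)
  simp only [expo, Finset.sum_add_distrib, h, mul_add, Finset.sum_const, Finset.card_univ,
    Fintype.card_fin, smul_eq_mul, mul_one, Finset.mul_sum]
  simp only [← Finset.mul_sum]
  ring

lemma core_support {k : Orbs m Q} (h : core k ≠ 0) :
    (∀ i, 3 ≤ (k i : ℕ)) ∧ ∑ i, (k i : ℕ) = 3 * ∑ i : Fin m, ((i : ℕ) + 1) := by
  have hc : coef k ≠ 0 := fun hc => h (by simp [core, hc])
  obtain ⟨σ, -, hσ⟩ := Finset.exists_ne_zero_of_sum_ne_zero hc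
  obtain ⟨τ, -, hτ⟩ := Finset.exists_ne_zero_of_sum_ne_zero hσ
  obtain ⟨ρ, -, hρ⟩ := Finset.exists_ne_zero_of_sum_ne_zero hτ
  by_cases hk : ∀ i, (k i : ℕ) = expo σ τ ρ i
  · exact ⟨fun i => by rw [hk i, expo]; omega, by simp only [hk]; exact sum_expo σ τ ρ⟩
  · simp [hk] at hρ

/-- The pair vectors annihilate the Laughlin vector. -/
lemma core_contract (hQ : Q = 3 * m) {i j : Fin m} (hij : i ≠ j) (s : ℕ) (x : Orbs m Q) :
    ∑ k, ∑ l, pairVec Q s k l * core (update (update x i k) j l) = 0 := by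
  set rest := √(∏ p ∈ (Finset.univ.erase i).erase j, (Q.choose (x p : ℕ) : ℝ))
  have hterm : ∀ k l : Fin (Q + 1), pairVec Q s k l * core (update (update x i k) j l)
      = (if (k : ℕ) + l = s then ((l : ℝ) - k) * coef (update (update x i k) j l) else 0) / rest := by
    intro k l
    unfold pairVec
    by_cases hs : (k : ℕ) + l = s
    · have hk : (0 : ℝ) < Q.choose (k : ℕ) :=
        Nat.cast_pos.2 (Nat.choose_pos (Nat.lt_succ_iff.1 k.2))
      have hl : (0 : ℝ) < Q.choose (l : ℕ) :=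
        Nat.cast_pos.2 (Nat.choose_pos (Nat.lt_succ_iff.1 l.2))
      have hprod : ∏ p, (Q.choose (update (update x i k) j l p : ℕ) : ℝ)
          = (Q.choose (k : ℕ) * Q.choose (l : ℕ)) *
            ∏ p ∈ (Finset.univ.erase i).erase j, (Q.choose (x p : ℕ) : ℝ) := by
        rw [← Finset.mul_prod_erase _ _ (Finset.mem_univ i),
          ← Finset.mul_prod_erase _ _ (Finset.mem_erase.2 ⟨hij.symm, Finset.mem_univ j⟩)]
        rw [update_of_ne hij, update_self, update_self, mul_assoc]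
        congr 2
        refine Finset.prod_congr rfl fun p hp => ?_
        simp only [Finset.mem_erase] at hp
        rw [update_of_ne hp.1, update_of_ne hp.2.1]
      rw [if_pos hs, if_pos hs, core, hprod, Real.sqrt_mul (mul_nonneg hk.le hl.le)]
      have := (Real.sqrt_pos.2 (mul_pos hk hl)).ne'
      field_simp
      rfl
    · simp [hs]
  simp only [hterm, ← Finset.sum_div]
  suffices h : ∑ k : Fin (Q + 1), ∑ l : Fin (Q + 1), (if (k : ℕ) + l = s then
      ((l : ℝ) - k) * coef (update (update x i k) j l) else 0) = 0 by rw [h, zero_div]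
  -- one term of the expansion
  set cond := fun σ τ ρ : Perm (Fin m) => (∀ p, p ≠ i → p ≠ j → (x p : ℕ) = expo σ τ ρ p) ∧
    expo σ τ ρ i + expo σ τ ρ j = s with hcond
  set sg := fun π : Perm (Fin m) => ((π.sign : ℤ) : ℝ) with hsg
  have hone : ∀ σ τ ρ : Perm (Fin m), ∑ k : Fin (Q + 1), ∑ l : Fin (Q + 1),
      (if (k : ℕ) + l = s then ((l : ℝ) - k) *
        (if ∀ p, (update (update x i k) j l p : ℕ) = expo σ τ ρ p then sg σ * sg τ * sg ρ else 0)
        else 0) =
      if cond σ τ ρ then ((expo σ τ ρ j : ℝ) - expo σ τ ρ i) * (sg σ * sg τ * sg ρ) else 0 := by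
    intro σ τ ρ
    have hb : ∀ p, expo σ τ ρ p < Q + 1 := fun p => by
      have := (σ p).2; have := (τ p).2; have := (ρ p).2
      unfold expo; omega
    have hiff : ∀ k l : Fin (Q + 1), (∀ p, (update (update x i k) j l p : ℕ) = expo σ τ ρ p) ↔
        ((∀ p, p ≠ i → p ≠ j → (x p : ℕ) = expo σ τ ρ p) ∧
          k = ⟨_, hb i⟩ ∧ l = ⟨_, hb j⟩) := by
      intro k l
      constructor
      · intro h
        refine ⟨fun p hpi hpj => ?_, Fin.ext ?_, Fin.ext ?_⟩
        · have := h p; rwa [update_of_ne hpj, update_of_ne hpi] at this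
        · have := h i; rwa [update_of_ne hij, update_self] at this
        · have := h j; rwa [update_self] at this
      · rintro ⟨h, rfl, rfl⟩ p
        by_cases hpj : p = j
        · subst hpj; simp
        by_cases hpi : p = i
        · subst hpi; simp [update_of_ne hpj]
        · rw [update_of_ne hpj, update_of_ne hpi]; exact h p hpi hpj
    rw [Finset.sum_eq_single ⟨_, hb i⟩, Finset.sum_eq_single ⟨_, hb j⟩]
    · simp only [hiff, hcond, and_true]
      by_cases h1 : ∀ p, p ≠ i → p ≠ j → (x p : ℕ) = expo σ τ ρ p <;>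
        by_cases h2 : expo σ τ ρ i + expo σ τ ρ j = s <;> simp [h1, h2]
    · intro l _ hl; simp only [hiff, hl, and_false, if_false, mul_zero, ite_self]
    · simp
    · intro k _ hk; exact Finset.sum_eq_zero fun l _ => by
        simp only [hiff, hk, and_false, false_and, if_false, mul_zero, ite_self]
    · simp
  have hexp : ∀ k l : Fin (Q + 1),
      (if (k : ℕ) + l = s then ((l : ℝ) - k) * coef (update (update x i k) j l) else 0)
        = ∑ σ, ∑ τ, ∑ ρ, (if (k : ℕ) + l = s then ((l : ℝ) - k) *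
          (if ∀ p, (update (update x i k) j l p : ℕ) = expo σ τ ρ p
            then sg σ * sg τ * sg ρ else 0) else 0) := fun k l => by
    by_cases hs : (k : ℕ) + l = s <;> simp [hs, coef, hsg, Finset.mul_sum]
  simp only [hexp]
  rw [Finset.sum_congr rfl fun k _ => (Finset.sum_comm), Finset.sum_comm]
  rw [Finset.sum_congr rfl fun σ _ =>
    (Finset.sum_congr rfl fun k _ => Finset.sum_comm).trans Finset.sum_comm]
  rw [Finset.sum_congr rfl fun σ _ => Finset.sum_congr rfl fun τ _ =>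
    (Finset.sum_congr rfl fun k _ => Finset.sum_comm).trans Finset.sum_comm]
  simp only [hone]
  -- each of the three parts of the weight cancels under a swap in another permutation
  have sw : ∀ π : Perm (Fin m), sg (π * swap i j) = -sg π := fun π => by
    simp [hsg, Perm.sign_mul, Perm.sign_swap hij]
  have key : ∀ F : Perm (Fin m) → ℝ, (∀ π, F (π * swap i j) = -F π) → ∑ π, F π = 0 := by
    intro F hF
    have h := Equiv.sum_comp (Equiv.mulRight (swap i j)) F
    simp only [Equiv.coe_mulRight, hF, Finset.sum_neg_distrib] at h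
    linarith
  set d := fun π : Perm (Fin m) => ((π j : ℕ) : ℝ) - (π i : ℕ) with hd
  have split : ∀ σ τ ρ : Perm (Fin m),
      (if cond σ τ ρ then ((expo σ τ ρ j : ℝ) - expo σ τ ρ i) * (sg σ * sg τ * sg ρ) else 0)
        = (if cond σ τ ρ then d σ * (sg σ * sg τ * sg ρ) else 0)
          + (if cond σ τ ρ then (d τ + d ρ) * (sg σ * sg τ * sg ρ) else 0) := fun σ τ ρ => by
    split_ifs <;> simp [hd, expo]; ring
  have csym1 : ∀ σ τ ρ, cond (σ * swap i j) τ ρ ↔ cond σ τ ρ := fun σ τ ρ => by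
    simp only [hcond, expo, Perm.mul_apply, swap_apply_left, swap_apply_right]
    refine and_congr (forall_congr' fun p => forall_congr' fun hp => forall_congr' fun hq => ?_) ?_
    · rw [swap_apply_of_ne_of_ne hp hq]
    · omega
  have csym2 : ∀ σ τ ρ, cond σ (τ * swap i j) ρ ↔ cond σ τ ρ := fun σ τ ρ => by
    simp only [hcond, expo, Perm.mul_apply, swap_apply_left, swap_apply_right]
    refine and_congr (forall_congr' fun p => forall_congr' fun hp => forall_congr' fun hq => ?_) ?_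
    · rw [swap_apply_of_ne_of_ne hp hq]
    · omega
  simp only [split, Finset.sum_add_distrib]
  have z1 : ∑ σ, ∑ τ, ∑ ρ, (if cond σ τ ρ then d σ * (sg σ * sg τ * sg ρ) else 0) = 0 := by
    refine Finset.sum_eq_zero fun σ _ => key _ fun τ => ?_
    rw [← Finset.sum_neg_distrib]
    refine Finset.sum_congr rfl fun ρ _ => ?_
    simp only [csym2, sw]
    split_ifs <;> ring
  have z2 : ∑ σ, ∑ τ, ∑ ρ, (if cond σ τ ρ then (d τ + d ρ) * (sg σ * sg τ * sg ρ) else 0) = 0 := by
    refine key _ fun σ => ?_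
    rw [← Finset.sum_neg_distrib]
    refine Finset.sum_congr rfl fun τ _ => ?_
    rw [← Finset.sum_neg_distrib]
    refine Finset.sum_congr rfl fun ρ _ => ?_
    simp only [csym1, sw]
    split_ifs <;> ring
  rw [z1, z2, add_zero]

/-- The staircase has coefficient one. -/
lemma core_stair_ne (hQ : Q = 3 * m) (k : Orbs m Q) (hk : ∀ i, (k i : ℕ) = 3 * (i : ℕ) + 3) :
    core k ≠ 0 := by
  have hcoef : coef k = 1 := by
    have huniq : ∀ σ τ ρ : Perm (Fin m),
        (∀ i, (k i : ℕ) = expo σ τ ρ i) ↔ σ = 1 ∧ τ = 1 ∧ ρ = 1 := by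
      intro σ τ ρ
      constructor
      · intro h
        have hp : ∀ π : Perm (Fin m), ∑ i, ((π i : ℕ) : ℝ) ^ 2 = ∑ i : Fin m, ((i : ℕ) : ℝ) ^ 2 :=
          fun π => Equiv.sum_comp π fun i => ((i : ℕ) : ℝ) ^ 2
        have hz : ∑ i : Fin m, ((((σ i : ℕ) : ℝ) - (i : ℕ)) ^ 2 + (((τ i : ℕ) : ℝ) - (i : ℕ)) ^ 2
            + (((ρ i : ℕ) : ℝ) - (i : ℕ)) ^ 2) = 0 := by
          have e : ∀ i : Fin m, (((σ i : ℕ) : ℝ) - (i : ℕ)) ^ 2 + (((τ i : ℕ) : ℝ) - (i : ℕ)) ^ 2
              + (((ρ i : ℕ) : ℝ) - (i : ℕ)) ^ 2 = ((σ i : ℕ) : ℝ) ^ 2 + ((τ i : ℕ) : ℝ) ^ 2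
              + ((ρ i : ℕ) : ℝ) ^ 2 - 3 * ((i : ℕ) : ℝ) ^ 2 := fun i => by
            have h1 := h i
            rw [hk i, expo] at h1
            have h2 : ((σ i : ℕ) : ℝ) + (τ i : ℕ) + (ρ i : ℕ) = 3 * (i : ℕ) := by
              exact_mod_cast (by omega : (σ i : ℕ) + τ i + ρ i = 3 * (i : ℕ))
            linear_combination -2 * ((i : ℕ) : ℝ) * h2
          simp only [e, Finset.sum_sub_distrib, Finset.sum_add_distrib, hp, ← Finset.mul_sum]
          ring
        rw [Finset.sum_eq_zero_iff_of_nonneg fun i _ => by positivity] at hz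
        have h3 : ∀ π : Perm (Fin m), (∀ i, (((π i : ℕ) : ℝ) - (i : ℕ)) ^ 2 ≤ 0) → π = 1 :=
          fun π hπ => Equiv.ext fun i => Fin.ext (by
            have := sub_eq_zero.1 (sq_eq_zero_iff.1 (le_antisymm (hπ i) (sq_nonneg _)))
            rw [Perm.one_apply]
            exact_mod_cast this)
        refine ⟨h3 σ fun i => ?_, h3 τ fun i => ?_, h3 ρ fun i => ?_⟩ <;>
          linarith [hz i (Finset.mem_univ i), sq_nonneg (((σ i : ℕ) : ℝ) - (i : ℕ)),
            sq_nonneg (((τ i : ℕ) : ℝ) - (i : ℕ)), sq_nonneg (((ρ i : ℕ) : ℝ) - (i : ℕ))]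
      · rintro ⟨rfl, rfl, rfl⟩ i
        simp [hk i, expo]; omega
    unfold coef
    simp only [huniq]
    rw [Finset.sum_eq_single 1 (fun σ _ h => by simp [h]) (by simp),
      Finset.sum_eq_single 1 (fun σ _ h => by simp [h]) (by simp),
      Finset.sum_eq_single 1 (fun σ _ h => by simp [h]) (by simp)]
    simp
  rw [core, hcoef]
  exact div_ne_zero one_ne_zero (Real.sqrt_pos.2 (Finset.prod_pos fun i _ =>
    Nat.cast_pos.2 (Nat.choose_pos (Nat.lt_succ_iff.1 (k i).2)))).ne'

end Vale.Agent.P359.Upper
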