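import Mathlib

/-!
# P359: the pair Hamiltonian in the orbital basis

Orbital `k ≤ Q` of flux `Q` is the normalised monomial `√(Q.choose k) u^(Q-k) v^k`. The component
of total spin `Q - 1` of two particles is spanned, for each sum `s = k + l`, by the vector with
entries `√(Q.choose k * Q.choose l) * (l - k)`.
-/

noncomputable section

namespace Vale.Agent.P359.Upper

/-- Orbital configurations of `N` particles at flux `Q`. -/
abbrev Orbs (N Q : ℕ) : Type := Fin N → Fin (Q + 1)

/-- The pair vector with orbital sum `s`, not normalised. -/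
def pairVec (Q s : ℕ) (k l : Fin (Q + 1)) : ℝ :=
  if (k : ℕ) + l = s then √((Q.choose k : ℝ) * Q.choose l) * ((l : ℝ) - k) else 0

/-- Its squared norm. -/
def pairNorm (Q s : ℕ) : ℝ := ∑ k, ∑ l, pairVec Q s k l ^ 2

open Function in
/-- The amplitude of `ψ` along a pair vector in particles `i`, `j`. -/
def amp {N Q : ℕ} (ψ : Orbs N Q → ℝ) (i j : Fin N) (s : ℕ) (x : Orbs N Q) : ℝ :=
  ∑ k, ∑ l, pairVec Q s k l * ψ (update (update x i k) j l)

/-- `⟨ψ, H ψ⟩` for the sum over pairs of the projections to total spin `Q - 1`. The configuration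
`x` runs over the orbitals of the other particles (entries `i`, `j` fixed to `0`). -/
def energy {N Q : ℕ} (ψ : Orbs N Q → ℝ) : ℝ :=
  ∑ i : Fin N, ∑ j : Fin N, if i < j then
    ∑ s ∈ Finset.range (2 * Q + 1), ∑ x : Orbs N Q,
      (if x i = 0 ∧ x j = 0 then amp ψ i j s x ^ 2 / pairNorm Q s else 0)
  else 0

/-- The squared norm of a state. -/
def normSq {N Q : ℕ} (ψ : Orbs N Q → ℝ) : ℝ := ∑ x, ψ x ^ 2

/-- Antisymmetry under exchange of particles. -/
def IsFermionic {N Q : ℕ} (ψ : Orbs N Q → ℝ) : Prop :=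
  ∀ (π : Equiv.Perm (Fin N)) (x : Orbs N Q), ψ (x ∘ π) = ((π.sign : ℤ) : ℝ) * ψ x

end Vale.Agent.P359.Upper
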