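import Vale.Agent.P359.Upper.Defs

/-!
# P359: the weights of one electron against the others
-/

noncomputable section

namespace Vale.Agent.P359.Upper

lemma pairVec_swap (Q s : ℕ) (k l : Fin (Q + 1)) : pairVec Q s l k = -pairVec Q s k l := by
  unfold pairVec
  rw [add_comm (l : ℕ) k]
  split_ifs
  · rw [mul_comm (Q.choose (l : ℕ) : ℝ)]; ring
  · simp

lemma pairNorm_nonneg (Q s : ℕ) : 0 ≤ pairNorm Q s :=
  Finset.sum_nonneg fun _ _ => Finset.sum_nonneg fun _ _ => sq_nonneg _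

/-- The weight of an electron in orbital `l` against one in orbital `a`. -/
def weight (Q : ℕ) (a l : Fin (Q + 1)) : ℝ :=
  pairVec Q (a + l) a l ^ 2 / pairNorm Q (a + l)

lemma weight_nonneg (Q : ℕ) (a l : Fin (Q + 1)) : 0 ≤ weight Q a l :=
  div_nonneg (sq_nonneg _) (pairNorm_nonneg _ _)

lemma pairVec_sq (Q : ℕ) (k l : Fin (Q + 1)) : pairVec Q (k + l) k l ^ 2
    = (Q.choose k : ℝ) * Q.choose l * ((l : ℝ) - k) ^ 2 := by
  rw [pairVec, if_pos rfl, mul_pow, Real.sq_sqrt (by positivity)]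

lemma two_le_pairNorm {Q : ℕ} {k l : Fin (Q + 1)} (h : k ≠ l) :
    2 * pairVec Q (k + l) k l ^ 2 ≤ pairNorm Q (k + l) := by
  unfold pairNorm
  rw [← Fintype.sum_prod_type' (f := fun p q : Fin (Q + 1) => pairVec Q (k + l) p q ^ 2)]
  have hne : (k, l) ≠ (l, k) := fun e => h (congrArg Prod.fst e)
  calc 2 * pairVec Q (k + l) k l ^ 2
      = ∑ p ∈ {(k, l), (l, k)}, pairVec Q (k + l) p.1 p.2 ^ 2 := by
        rw [Finset.sum_pair hne]
        simp only [pairVec_swap Q (k + l) k l]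
        ring
    _ ≤ _ := Finset.sum_le_sum_of_subset_of_nonneg (Finset.subset_univ _) fun _ _ _ => sq_nonneg _

lemma weight_le_half {Q : ℕ} {a l : Fin (Q + 1)} (h : a ≠ l) : weight Q a l ≤ 1 / 2 := by
  rw [weight]
  rcases (pairNorm_nonneg Q (a + l)).eq_or_lt with h0 | h0
  · simp [← h0]
  · rw [div_le_iff₀ h0]
    linarith [two_le_pairNorm h]

lemma choose_step {Q l : ℕ} (h1 : 2 ≤ l) (h2 : l ≤ Q) :
    (Q.choose l : ℝ) * (l * (l - 1)) = Q.choose (l - 2) * ((Q - l + 2) * (Q - l + 1)) := by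
  obtain ⟨t, rfl⟩ : ∃ t, l = t + 2 := ⟨l - 2, by omega⟩
  have e1 := Nat.choose_succ_right_eq Q (t + 1)
  have e2 := Nat.choose_succ_right_eq Q t
  have c1 := congrArg (Nat.cast : ℕ → ℝ) e1
  have c2 := congrArg (Nat.cast : ℕ → ℝ) e2
  push_cast [Nat.cast_sub (show t + 1 ≤ Q by omega), Nat.cast_sub (show t ≤ Q by omega)] at c1 c2 ⊢
  linear_combination ((t : ℝ) + 1) * c1 + ((Q : ℝ) - t - 1) * c2

lemma choose_three (Q : ℕ) : (Q.choose 3 : ℝ) * 6 = Q * (Q - 1) * (Q - 2) := by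
  by_cases h : 3 ≤ Q
  · have e := congrArg (Nat.cast : ℕ → ℝ) (Nat.choose_succ_right_eq Q 2)
    push_cast [Nat.cast_sub (show 2 ≤ Q by omega), Nat.cast_choose_two] at e
    linarith
  · interval_cases Q <;> simp <;> norm_num [Nat.choose]

/-- Decay of the weight for the electron in orbital `0` or `1`. -/
lemma weight_decay {Q : ℕ} {a l : Fin (Q + 1)} (ha : (a : ℕ) ≤ 1) (hl : 8 ≤ (l : ℕ)) :
    weight Q a l ≤ 17 / ((l : ℝ) * ((l : ℝ) - 1)) := by
  have hlQ : (l : ℕ) ≤ Q := Nat.lt_succ_iff.1 l.2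
  set k : Fin (Q + 1) := ⟨(a : ℕ) + 2, by omega⟩ with hk
  set l' : Fin (Q + 1) := ⟨(l : ℕ) - 2, by omega⟩ with hl'
  have hne : k ≠ l' := fun e => by have := congrArg Fin.val e; simp [hk, hl'] at this; omega
  have hs : (k : ℕ) + l' = a + l := by simp [hk, hl']; omega
  have hb := two_le_pairNorm hne
  rw [hs] at hb
  have hv : pairVec Q (a + l) k l' ^ 2 = (Q.choose ((a : ℕ) + 2) : ℝ) * Q.choose ((l : ℕ) - 2)
      * (((l : ℝ) - 2) - ((a : ℝ) + 2)) ^ 2 := by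
    rw [← hs, pairVec_sq]
    simp [hk, hl', Nat.cast_sub (show 2 ≤ (l : ℕ) by omega)]
  rw [hv] at hb
  have hQ : (8 : ℝ) ≤ Q := by exact_mod_cast hl.trans hlQ
  have hL : (8 : ℝ) ≤ l := by exact_mod_cast hl
  have hLQ : (l : ℝ) ≤ Q := by exact_mod_cast hlQ
  have hcs := choose_step (show 2 ≤ (l : ℕ) by omega) hlQ
  have hc0 : (0 : ℝ) < Q.choose ((l : ℕ) - 2) := Nat.cast_pos.2 (Nat.choose_pos (by omega))
  have hP : 0 ≤ ((Q : ℝ) - l + 2) * ((Q : ℝ) - l + 1) := by nlinarith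
  have hP2 : ((Q : ℝ) - l + 2) * ((Q : ℝ) - l + 1) ≤ ((Q : ℝ) - 2) * ((Q : ℝ) - 1) := by nlinarith
  rcases Nat.le_one_iff_eq_zero_or_eq_one.1 ha with h0 | h1
  · rw [h0] at hb
    simp only [zero_add, Nat.cast_zero, Nat.cast_choose_two] at hb
    rw [weight, pairVec_sq, h0]
    simp only [Nat.choose_zero_right, Nat.cast_one, one_mul, Nat.cast_zero, sub_zero, zero_add]
    have hpos : (0 : ℝ) < (Q : ℝ) * (Q - 1) / 2 * Q.choose ((l : ℕ) - 2) * ((l : ℝ) - 2 - 2) ^ 2 :=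
      mul_pos (mul_pos (by nlinarith) hc0) (pow_pos (by linarith) 2)
    rw [div_le_div_iff₀ (by linarith) (by nlinarith)]
    refine le_trans (le_of_eq (show _ = (Q.choose ((l : ℕ) - 2) : ℝ)
      * (((Q : ℝ) - l + 2) * ((Q : ℝ) - l + 1)) * (l : ℝ) ^ 2 by rw [← hcs]; ring)) ?_
    refine le_trans ?_ (mul_le_mul_of_nonneg_left hb (by norm_num : (0 : ℝ) ≤ 17))
    have h4 : (l : ℝ) ^ 2 ≤ 17 * ((l : ℝ) - 2 - 2) ^ 2 := by nlinarith
    calc (Q.choose ((l : ℕ) - 2) : ℝ) * (((Q : ℝ) - l + 2) * ((Q : ℝ) - l + 1)) * (l : ℝ) ^ 2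
        ≤ (Q.choose ((l : ℕ) - 2) : ℝ) * ((Q : ℝ) * (Q - 1)) * (17 * ((l : ℝ) - 2 - 2) ^ 2) := by
          gcongr
          all_goals nlinarith
      _ = _ := by ring
  · rw [h1] at hb
    simp only [show (1 : ℕ) + 2 = 3 from rfl, Nat.cast_one] at hb
    rw [weight, pairVec_sq, h1]
    simp only [Nat.choose_one_right, Nat.cast_one]
    have h6 := choose_three Q
    have hpos : (0 : ℝ) < (Q.choose 3 : ℝ) * Q.choose ((l : ℕ) - 2) * ((l : ℝ) - 2 - (1 + 2)) ^ 2 :=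
      mul_pos (mul_pos (Nat.cast_pos.2 (Nat.choose_pos (by omega))) hc0) (pow_pos (by linarith) 2)
    rw [div_le_div_iff₀ (by linarith) (by nlinarith)]
    refine le_trans (le_of_eq (show _ = (Q : ℝ) * ((Q.choose ((l : ℕ) - 2) : ℝ)
      * (((Q : ℝ) - l + 2) * ((Q : ℝ) - l + 1))) * ((l : ℝ) - 1) ^ 2 by rw [← hcs]; ring)) ?_
    refine le_trans ?_ (mul_le_mul_of_nonneg_left hb (by norm_num : (0 : ℝ) ≤ 17))
    have h4 : 6 * ((l : ℝ) - 1) ^ 2 ≤ 34 * ((l : ℝ) - 2 - (1 + 2)) ^ 2 := by nlinarith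
    calc (Q : ℝ) * ((Q.choose ((l : ℕ) - 2) : ℝ) * (((Q : ℝ) - l + 2) * ((Q : ℝ) - l + 1)))
          * ((l : ℝ) - 1) ^ 2
        ≤ (Q : ℝ) * ((Q.choose ((l : ℕ) - 2) : ℝ) * (((Q : ℝ) - 2) * ((Q : ℝ) - 1)))
          * ((l : ℝ) - 1) ^ 2 := by gcongr
      _ = (Q.choose 3 : ℝ) * Q.choose ((l : ℕ) - 2) * (6 * ((l : ℝ) - 1) ^ 2) := by
          linear_combination (-((l : ℝ) - 1) ^ 2 * (Q.choose ((l : ℕ) - 2) : ℝ)) * h6
      _ ≤ (Q.choose 3 : ℝ) * Q.choose ((l : ℕ) - 2) * (34 * ((l : ℝ) - 2 - (1 + 2)) ^ 2) := by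
          gcongr
      _ = _ := by ring

/-- The weights of all orbitals above two add up to at most five. -/
lemma sum_weight_le {Q : ℕ} (a : Fin (Q + 1)) (ha : (a : ℕ) ≤ 1) :
    ∑ l ∈ Finset.univ.filter (fun l : Fin (Q + 1) => 3 ≤ (l : ℕ)), weight Q a l ≤ 5 := by
  set F : ℕ → ℝ := fun n => if n < 8 then 1 / 2 else 17 / ((n : ℝ) * ((n : ℝ) - 1)) with hF
  have hle : ∀ l : Fin (Q + 1), 3 ≤ (l : ℕ) → weight Q a l ≤ F l := by
    intro l hl
    simp only [hF]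
    split_ifs with h
    · exact weight_le_half fun e => by rw [e] at ha; omega
    · exact weight_decay ha (not_lt.1 h)
  have hF0 : ∀ n, 0 ≤ F n := fun n => by
    simp only [hF]
    split_ifs with h
    · norm_num
    · have : (8 : ℝ) ≤ n := by exact_mod_cast not_lt.1 h
      exact div_nonneg (by norm_num) (by nlinarith)
  refine (Finset.sum_le_sum fun l hl => hle l (Finset.mem_filter.1 hl).2).trans ?_
  rw [← Finset.sum_image (s := Finset.univ.filter fun l : Fin (Q + 1) => 3 ≤ (l : ℕ))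
    (g := fun l => (l : ℕ)) (f := F) (Fin.val_injective.injOn)]
  refine (Finset.sum_le_sum_of_subset_of_nonneg (t := Finset.Ico 3 (Q + 9)) (fun n hn => ?_)
    fun n _ _ => hF0 n).trans ?_
  · obtain ⟨l, hl, rfl⟩ := Finset.mem_image.1 hn
    have := l.2; have := (Finset.mem_filter.1 hl).2
    exact Finset.mem_Ico.2 ⟨this, by omega⟩
  rw [← Finset.sum_Ico_consecutive F (show 3 ≤ 8 by norm_num) (show 8 ≤ Q + 9 by omega)]
  have h1 : ∑ n ∈ Finset.Ico 3 8, F n = 5 / 2 := by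
    rw [Finset.sum_congr rfl fun n hn => if_pos (Finset.mem_Ico.1 hn).2]
    simp; norm_num
  have h2 : ∀ M, 8 ≤ M → ∑ n ∈ Finset.Ico 8 M, F n = 17 * (1 / 7 - 1 / ((M : ℝ) - 1)) := by
    intro M hM
    induction M, hM using Nat.le_induction with
    | base => norm_num
    | succ M hM ih =>
      rw [Finset.sum_Ico_succ_top hM, ih, hF]
      simp only [if_neg (not_lt.2 hM)]
      have : (8 : ℝ) ≤ M := by exact_mod_cast hM
      have h0 : (M : ℝ) - 1 ≠ 0 := by linarith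
      push_cast
      rw [show (M : ℝ) + 1 - 1 = M by ring]
      field_simp
      ring
  rw [h1, h2 _ (by omega)]
  have : (0 : ℝ) ≤ 1 / (((Q + 9 : ℕ) : ℝ) - 1) := by
    have : (9 : ℝ) ≤ ((Q + 9 : ℕ) : ℝ) := by exact_mod_cast (by omega : 9 ≤ Q + 9)
    exact div_nonneg zero_le_one (by linarith)
  linarith

end Vale.Agent.P359.Upper
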