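import Vale.Agent.P359.Upper.Core
import Vale.Agent.P359.Upper.Weight

/-!
# P359: the two trial states
-/

noncomputable section

open Function Equiv

namespace Vale.Agent.P359.Upper

variable {m Q : ℕ}

/-- One electron in orbital `a`, the others in the shifted Laughlin vector, antisymmetrised. -/
def trial (a : Fin (Q + 1)) (y : Orbs (m + 1) Q) : ℝ :=
  ∑ π : Perm (Fin (m + 1)),
    if y (π 0) = a then ((π.sign : ℤ) : ℝ) * core (fun i => y (π i.succ)) else 0

lemma trial_fermionic (a : Fin (Q + 1)) : IsFermionic (trial (m := m) a) := by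
  intro e y
  unfold trial
  rw [Finset.mul_sum, ← Equiv.sum_comp (Equiv.mulLeft e) (fun π =>
    ((e.sign : ℤ) : ℝ) * if y (π 0) = a then ((π.sign : ℤ) : ℝ) * core (fun i => y (π i.succ)) else 0)]
  refine Finset.sum_congr rfl fun π _ => ?_
  simp only [Equiv.coe_mulLeft, comp_apply, Perm.mul_apply, Perm.sign_mul]
  split_ifs
  · rcases Int.units_eq_one_or e.sign with he | he <;> simp [he]
  · simp

/-- The total orbital index of the Laughlin part. -/
def coreSum (m : ℕ) : ℕ := 3 * ∑ i : Fin m, ((i : ℕ) + 1)

lemma trial_support {a : Fin (Q + 1)} {y : Orbs (m + 1) Q} (h : trial a y ≠ 0) :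
    (∃ p, y p = a ∧ ∀ q, q ≠ p → 3 ≤ (y q : ℕ)) ∧ ∑ q, (y q : ℕ) = a + coreSum m := by
  obtain ⟨π, -, hπ⟩ := Finset.exists_ne_zero_of_sum_ne_zero h
  by_cases hc : y (π 0) = a
  · rw [if_pos hc] at hπ
    obtain ⟨h3, hsum⟩ := core_support (right_ne_zero_of_mul hπ)
    refine ⟨⟨π 0, hc, fun q hq => ?_⟩, ?_⟩
    · obtain ⟨t, ht⟩ : ∃ t, π.symm q = Fin.succ t :=
        ⟨_, (Fin.succ_pred _ (fun e => hq (by rw [← e, Equiv.apply_symm_apply]))).symm⟩
      have := h3 t
      rwa [← ht, Equiv.apply_symm_apply] at this
    · rw [← Equiv.sum_comp π fun q => (y q : ℕ), Fin.sum_univ_succ, hc, hsum, coreSum]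
  · simp [hc] at hπ

lemma fermionic_injective {N : ℕ} {ψ : Orbs N Q → ℝ} (hψ : IsFermionic ψ) {y : Orbs N Q}
    (h : ψ y ≠ 0) : Injective y := by
  intro p q hpq
  by_contra hne
  have e : y ∘ swap p q = y := by
    funext t
    simp only [comp_apply]
    rcases eq_or_ne t p with rfl | htp
    · simp [hpq]
    rcases eq_or_ne t q with rfl | htq
    · simp [hpq]
    rw [swap_apply_of_ne_of_ne htp htq]
  have := hψ (swap p q) y
  rw [e, Perm.sign_swap hne] at this
  push_cast at this
  exact h (by linarith)

/-- No pair not containing the extra electron feels an interaction. -/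
lemma amp_trial_eq_zero (hQ : Q = 3 * m) {a : Fin (Q + 1)} (ha : (a : ℕ) < 3)
    {i j p : Fin (m + 1)} (hij : i ≠ j) (hpi : p ≠ i) (hpj : p ≠ j) {x : Orbs (m + 1) Q}
    (hx : x p = a) (s : ℕ) : amp (trial a) i j s x = 0 := by
  unfold amp trial
  simp only [Finset.mul_sum]
  rw [Finset.sum_congr rfl fun k _ => Finset.sum_comm, Finset.sum_comm]
  refine Finset.sum_eq_zero fun π _ => ?_
  by_cases hπ : π 0 = p
  · obtain ⟨i', hi'⟩ : ∃ t, π.symm i = Fin.succ t :=
      ⟨_, (Fin.succ_pred _ (fun e => hpi (by rw [← hπ, ← e, Equiv.apply_symm_apply]))).symm⟩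
    obtain ⟨j', hj'⟩ : ∃ t, π.symm j = Fin.succ t :=
      ⟨_, (Fin.succ_pred _ (fun e => hpj (by rw [← hπ, ← e, Equiv.apply_symm_apply]))).symm⟩
    have hi : π i'.succ = i := by rw [← hi', Equiv.apply_symm_apply]
    have hj : π j'.succ = j := by rw [← hj', Equiv.apply_symm_apply]
    have hne : i' ≠ j' := fun e => hij (by rw [← hi, ← hj, e])
    have hinj : Injective fun t : Fin m => π t.succ := π.injective.comp (Fin.succ_injective m)
    have e : ∀ k l, (fun t : Fin m => update (update x i k) j l (π t.succ))
        = update (update (fun t => x (π t.succ)) i' k) j' l := by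
      intro k l
      have e1 := update_comp_eq_of_injective (update x i k) hinj j' l
      have e2 := update_comp_eq_of_injective x hinj i' k
      simp only [hi, hj] at e1 e2
      calc (fun t : Fin m => update (update x i k) j l (π t.succ))
          = update (update x i k ∘ fun t => π t.succ) j' l := e1
        _ = _ := by rw [e2]; rfl
    have h0 : ∀ k l, update (update x i k) j l (π 0) = a := fun k l => by
      rw [hπ, update_of_ne hpj, update_of_ne hpi, hx]
    simp only [h0, if_true, e, mul_left_comm (pairVec Q s _ _) ((π.sign : ℤ) : ℝ), ← Finset.mul_sum,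
      core_contract hQ hne s, mul_zero]
  · refine Finset.sum_eq_zero fun k _ => Finset.sum_eq_zero fun l _ => ?_
    split_ifs with hc
    · suffices h : core (fun t => update (update x i k) j l (π t.succ)) = 0 by rw [h]; simp
      by_contra hcore
      obtain ⟨t, ht⟩ : ∃ t, π.symm p = Fin.succ t :=
        ⟨_, (Fin.succ_pred _ (fun e => hπ (by rw [← e, Equiv.apply_symm_apply]))).symm⟩
      have := (core_support hcore).1 t
      rw [← ht, Equiv.apply_symm_apply, update_of_ne hpj, update_of_ne hpi, hx] at this
      omega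
    · simp

lemma amp_trial_sq_le (hQ : Q = 3 * m) {a : Fin (Q + 1)} (ha : (a : ℕ) < 3)
    {i j : Fin (m + 1)} (hij : i ≠ j) (s : ℕ) (x : Orbs (m + 1) Q) :
    amp (trial a) i j s x ^ 2 ≤
      4 * ∑ l, pairVec Q s a l ^ 2 * trial a (update (update x i a) j l) ^ 2 := by
  by_cases hp : ∃ p, p ≠ i ∧ p ≠ j ∧ x p = a
  · obtain ⟨p, hpi, hpj, hx⟩ := hp
    rw [amp_trial_eq_zero hQ ha hij hpi hpj hx, zero_pow two_ne_zero]
    positivity
  push Not at hp
  set f := fun k l => pairVec Q s k l * trial a (update (update x i k) j l) with hf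
  have hsplit : ∀ k l, f k l = (if k = a then f k l else 0) + (if l = a then f k l else 0) := by
    intro k l
    by_cases h0 : trial a (update (update x i k) j l) = 0
    · simp [hf, h0]
    obtain ⟨⟨p, hp1, -⟩, -⟩ := trial_support h0
    have hinj := fermionic_injective (trial_fermionic a) h0
    have hka : k = a ∨ l = a := by
      by_cases hpj : p = j
      · subst hpj; simp at hp1; exact Or.inr hp1
      by_cases hpi : p = i
      · subst hpi; rw [update_of_ne hpj, update_self] at hp1; exact Or.inl hp1
      · rw [update_of_ne hpj, update_of_ne hpi] at hp1; exact absurd hp1 (hp p hpi hpj)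
    have hkl : k ≠ l := fun e => hij (hinj (by simp [update_of_ne hij, e]))
    rcases hka with rfl | rfl
    · simp [hkl.symm]
    · simp [hkl]
  have hswap : ∀ k, f k a = f a k := by
    intro k
    have hsw : update (update x i k) j a ∘ swap i j = update (update x i a) j k := by
      funext t
      rcases eq_or_ne t i with rfl | hti
      · simp [update_of_ne hij]
      rcases eq_or_ne t j with rfl | htj
      · simp [update_of_ne hij]
      simp [swap_apply_of_ne_of_ne hti htj, update_of_ne hti, update_of_ne htj]
    have h := trial_fermionic a (swap i j) (update (update x i k) j a)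
    rw [hsw, Perm.sign_swap hij] at h
    simp only [hf, pairVec_swap Q s k a, h]
    push_cast
    ring
  have hamp : amp (trial a) i j s x = 2 * ∑ l, f a l := by
    show ∑ k, ∑ l, f k l = _
    rw [Finset.sum_congr rfl fun k _ => Finset.sum_congr rfl fun l _ => hsplit k l]
    simp only [Finset.sum_add_distrib, Finset.sum_ite_eq', Finset.mem_univ, if_true, hswap]
    rw [Finset.sum_eq_single a (fun k _ hk => by simp [hk]) (by simp)]
    simp only [if_true]
    ring
  have hsq : (∑ l, f a l) ^ 2 = ∑ l, f a l ^ 2 := by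
    rw [sq, Finset.sum_mul_sum]
    refine Finset.sum_congr rfl fun l _ => ?_
    rw [Finset.sum_eq_single_of_mem l (Finset.mem_univ l), sq]
    intro l' _ hne
    by_cases h1 : (a : ℕ) + l = s
    · have : (a : ℕ) + l' ≠ s := fun h2 => hne (Fin.ext (by omega))
      simp [hf, pairVec, this]
    · simp [hf, pairVec, h1]
  rw [hamp, mul_pow, hsq]
  simp only [hf, mul_pow]
  norm_num

/-- The energy of a trial state is at most ten times its norm. -/
theorem energy_trial_le (hQ : Q = 3 * m) {a : Fin (Q + 1)} (ha : (a : ℕ) ≤ 1) :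
    energy (trial (m := m) a) ≤ 10 * normSq (trial (m := m) a) := by
  classical
  set ψ := trial (m := m) a with hψ
  set A := fun i j : Fin (m + 1) =>
    ∑ y : Orbs (m + 1) Q, if y i = a then weight Q a (y j) * ψ y ^ 2 else 0 with hA
  have hw : ∀ l : Fin (Q + 1), ∑ s ∈ Finset.range (2 * Q + 1),
      pairVec Q s a l ^ 2 / pairNorm Q s = weight Q a l := by
    intro l
    rw [Finset.sum_eq_single ((a : ℕ) + l)]
    · rfl
    · intro s _ hs; simp [pairVec, Ne.symm hs]
    · intro hs; exact absurd (Finset.mem_range.2 (by have := a.2; have := l.2; omega)) hs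
  have hpair : ∀ i j : Fin (m + 1), i ≠ j → ∑ s ∈ Finset.range (2 * Q + 1), ∑ x : Orbs (m + 1) Q,
      (if x i = 0 ∧ x j = 0 then amp ψ i j s x ^ 2 / pairNorm Q s else 0) ≤ 4 * A i j := by
    intro i j hij
    rw [Finset.sum_comm]
    calc ∑ x : Orbs (m + 1) Q, ∑ s ∈ Finset.range (2 * Q + 1),
          (if x i = 0 ∧ x j = 0 then amp ψ i j s x ^ 2 / pairNorm Q s else 0)
        ≤ ∑ x : Orbs (m + 1) Q, if x i = 0 ∧ x j = 0 then
            ∑ l, 4 * weight Q a l * ψ (update (update x i a) j l) ^ 2 else 0 := by
          refine Finset.sum_le_sum fun x _ => ?_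
          by_cases hx : x i = 0 ∧ x j = 0
          · simp only [if_pos hx, ← hw, Finset.mul_sum, Finset.sum_mul]
            rw [Finset.sum_comm (s := Finset.univ) (t := Finset.range (2 * Q + 1))]
            refine Finset.sum_le_sum fun s _ => ?_
            refine (div_le_div_of_nonneg_right (amp_trial_sq_le hQ (by omega) hij s x)
              (pairNorm_nonneg _ _)).trans (le_of_eq ?_)
            rw [Finset.mul_sum, Finset.sum_div]
            exact Finset.sum_congr rfl fun l _ => by rw [hψ]; ring
          · simp [hx]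
      _ = 4 * A i j := by
          rw [← Finset.sum_filter, ← Finset.sum_product', hA, Finset.mul_sum]
          simp only [mul_ite, mul_zero]
          rw [← Finset.sum_filter]
          refine Finset.sum_nbij' (fun z => update (update z.1 i a) j z.2)
            (fun y => (update (update y i 0) j 0, y j)) ?_ ?_ ?_ ?_ ?_
          · intro z _; simp [update_of_ne hij]
          · intro y _; simp [update_of_ne hij]
          · rintro ⟨x, l⟩ hz
            simp only [Finset.mem_product, Finset.mem_filter, Finset.mem_univ, true_and, and_true] at hz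
            simp only [update_self, Prod.mk.injEq, and_true]
            funext t
            rcases eq_or_ne t j with rfl | htj
            · simp [hz.2]
            rcases eq_or_ne t i with rfl | hti
            · simp [update_of_ne hij, hz.1]
            simp [update_of_ne htj, update_of_ne hti]
          · intro y hy
            simp only [Finset.mem_filter, Finset.mem_univ, true_and] at hy
            funext t
            rcases eq_or_ne t j with rfl | htj
            · simp
            rcases eq_or_ne t i with rfl | hti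
            · simp [update_of_ne hij, hy]
            simp [update_of_ne htj, update_of_ne hti]
          · intro z _; simp [mul_assoc]
  have hsymm : ∀ i j : Fin (m + 1), i < j → ∑ s ∈ Finset.range (2 * Q + 1), ∑ x : Orbs (m + 1) Q,
      (if x i = 0 ∧ x j = 0 then amp ψ i j s x ^ 2 / pairNorm Q s else 0) ≤
        2 * A i j + 2 * A j i := by
    intro i j hij
    have e : A j i = A i j := by
      simp only [hA]
      rw [← Equiv.sum_comp (Equiv.arrowCongr (swap i j) (Equiv.refl (Fin (Q + 1))))]
      refine Finset.sum_congr rfl fun y _ => ?_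
      have hyp : Equiv.arrowCongr (swap i j) (Equiv.refl (Fin (Q + 1))) y = y ∘ swap i j := by
        funext t; simp [Equiv.arrowCongr]
      rw [hyp, hψ, trial_fermionic a (swap i j) y, Perm.sign_swap hij.ne]
      simp
    have := hpair i j hij.ne
    linarith
  have hE : energy ψ ≤ 2 * ∑ i, ∑ j, if i ≠ j then A i j else 0 := by
    have h1 : energy ψ ≤ ∑ i, ∑ j, if i < j then 2 * A i j + 2 * A j i else 0 :=
      Finset.sum_le_sum fun i _ => Finset.sum_le_sum fun j _ => by
        by_cases h : i < j
        · simp only [if_pos h]; exact hsymm i j h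
        · simp [h]
    refine h1.trans (le_of_eq ?_)
    have h2 : ∀ i j : Fin (m + 1), (if i < j then 2 * A i j + 2 * A j i else 0)
        = (if i < j then 2 * A i j else 0) + (if i < j then 2 * A j i else 0) := fun i j => by
      split_ifs <;> ring
    simp only [h2, Finset.sum_add_distrib, Finset.mul_sum]
    rw [Finset.sum_comm (f := fun i j => if i < j then 2 * A j i else 0)]
    simp only [← Finset.sum_add_distrib]
    refine Finset.sum_congr rfl fun i _ => Finset.sum_congr rfl fun j _ => ?_
    rcases lt_trichotomy i j with h | h | h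
    · simp [h, h.ne, not_lt.2 h.le]
    · simp [h]
    · simp [h, h.ne', not_lt.2 h.le]
  refine hE.trans ?_
  suffices h : ∑ i, ∑ j, (if i ≠ j then A i j else 0) ≤ 5 * normSq ψ by linarith
  calc ∑ i, ∑ j, (if i ≠ j then A i j else 0)
      = ∑ y : Orbs (m + 1) Q, ψ y ^ 2 *
          ∑ i, ∑ j, (if i ≠ j ∧ y i = a then weight Q a (y j) else 0) := by
        simp only [hA, Finset.mul_sum]
        rw [Finset.sum_congr rfl fun i _ => Finset.sum_congr rfl fun j _ => show
          (if i ≠ j then ∑ y : Orbs (m + 1) Q, (if y i = a then weight Q a (y j) * ψ y ^ 2 else 0)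
            else 0) = ∑ y : Orbs (m + 1) Q,
              ψ y ^ 2 * (if i ≠ j ∧ y i = a then weight Q a (y j) else 0) by
            by_cases h : i ≠ j <;> simp [h, mul_comm]]
        rw [Finset.sum_congr rfl fun i _ => Finset.sum_comm, Finset.sum_comm]
    _ ≤ ∑ y : Orbs (m + 1) Q, ψ y ^ 2 * 5 := by
        refine Finset.sum_le_sum fun y _ => ?_
        by_cases h0 : ψ y = 0
        · simp [h0]
        refine mul_le_mul_of_nonneg_left ?_ (sq_nonneg _)
        obtain ⟨⟨p, hp, hge⟩, -⟩ := trial_support h0
        have hinj := fermionic_injective (trial_fermionic a) h0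
        rw [Finset.sum_eq_single p (fun i _ hi => Finset.sum_eq_zero fun j _ => by
          rw [if_neg]; rintro ⟨-, h⟩; exact hi (hinj (h.trans hp.symm))) (by simp)]
        simp only [hp, and_true]
        rw [← Finset.sum_filter, ← Finset.sum_image (g := y) (f := weight Q a) hinj.injOn]
        refine (Finset.sum_le_sum_of_subset_of_nonneg (fun l hl => ?_)
          fun l _ _ => weight_nonneg Q a l).trans (sum_weight_le a ha)
        obtain ⟨j, hj, rfl⟩ := Finset.mem_image.1 hl
        exact Finset.mem_filter.2 ⟨Finset.mem_univ _, hge j (Finset.mem_filter.1 hj).2.symm⟩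
    _ = 5 * normSq ψ := by
        rw [normSq, Finset.mul_sum]
        exact Finset.sum_congr rfl fun y _ => mul_comm _ _

lemma trial_ne_zero (hQ : Q = 3 * m) {a : Fin (Q + 1)} (ha : (a : ℕ) < 3) :
    ∃ y : Orbs (m + 1) Q, trial a y ≠ 0 := by
  classical
  set k : Orbs m Q := fun i => ⟨3 * (i : ℕ) + 3, by have := i.2; omega⟩ with hk
  set y : Orbs (m + 1) Q := Fin.cons a k with hy
  refine ⟨y, ?_⟩
  have hterm : ∀ p : Fin (m + 1) × Perm (Fin m),
      (if y (Equiv.Perm.decomposeFin.symm p 0) = a then
        (((Equiv.Perm.decomposeFin.symm p).sign : ℤ) : ℝ) *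
          core (fun i => y (Equiv.Perm.decomposeFin.symm p i.succ)) else 0)
        = if p.1 = 0 then core k else 0 := by
    rintro ⟨p, e⟩
    rw [Equiv.Perm.decomposeFin_symm_apply_zero]
    by_cases hp : p = 0
    · subst hp
      rw [if_pos (by simp [hy]), if_pos rfl, Equiv.Perm.decomposeFin.symm_sign]
      have hc : (fun i : Fin m => y (Equiv.Perm.decomposeFin.symm (0, e) i.succ)) = k ∘ e := by
        funext i; simp [hy, Equiv.Perm.decomposeFin_symm_apply_succ]
      rw [hc, core_perm, if_pos rfl, one_mul]
      rcases Int.units_eq_one_or e.sign with he | he <;> simp [he]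
    · rw [if_neg, if_neg hp]
      obtain ⟨t, rfl⟩ := Fin.exists_succ_eq.2 hp
      intro hya
      have := congrArg Fin.val hya
      simp [hy, hk] at this
      omega
  rw [trial, ← Equiv.sum_comp Equiv.Perm.decomposeFin.symm]
  simp only [hterm, Fintype.sum_prod_type]
  rw [Finset.sum_eq_single 0 (fun p _ hp => by simp [hp]) (by simp)]
  simp only [if_true]
  rw [Finset.sum_const, nsmul_eq_mul, Finset.card_univ]
  exact mul_ne_zero (Nat.cast_ne_zero.2 Fintype.card_ne_zero) (core_stair_ne hQ k fun i => rfl)

/-- Trial states with different extra orbitals live in different sectors. -/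
lemma trial_mul_eq_zero {a b : Fin (Q + 1)} (hab : a ≠ b) (y : Orbs (m + 1) Q) :
    trial a y * trial b y = 0 := by
  by_contra h
  rw [mul_eq_zero, not_or] at h
  exact hab (Fin.ext (by have := (trial_support h.1).2; have := (trial_support h.2).2; omega))

lemma amp_trial_mul_eq_zero {a b : Fin (Q + 1)} (hab : a ≠ b) (i j : Fin (m + 1)) (hij : i ≠ j)
    (s : ℕ) (x : Orbs (m + 1) Q) : amp (trial a) i j s x * amp (trial b) i j s x = 0 := by
  have key : ∀ c, amp (trial c) i j s x ≠ 0 →
      (c : ℕ) + coreSum m + (x i : ℕ) + x j = s + ∑ q, (x q : ℕ) := by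
    intro c h
    obtain ⟨k, -, hk⟩ := Finset.exists_ne_zero_of_sum_ne_zero h
    obtain ⟨l, -, hl⟩ := Finset.exists_ne_zero_of_sum_ne_zero hk
    have hsum := (trial_support (right_ne_zero_of_mul hl)).2
    have hkl : (k : ℕ) + l = s := by
      by_contra hn; exact left_ne_zero_of_mul hl (by simp [pairVec, hn])
    have e1 : ∀ (z : Orbs (m + 1) Q) (t : Fin (m + 1)) (v : Fin (Q + 1)),
        (∑ q, (update z t v q : ℕ)) + z t = (∑ q, (z q : ℕ)) + v := by
      intro z t v
      rw [← Finset.add_sum_erase _ _ (Finset.mem_univ t), ← Finset.add_sum_erase _ _ (Finset.mem_univ t),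
        update_self, Finset.sum_congr rfl fun q hq => by rw [update_of_ne (Finset.mem_erase.1 hq).1]]
      ring
    have a1 := e1 x i k
    have a2 := e1 (update x i k) j l
    rw [update_of_ne hij.symm] at a2
    omega
  by_contra h
  rw [mul_eq_zero, not_or] at h
  exact hab (Fin.ext (by have := key a h.1; have := key b h.2; omega))

/-- Two orthogonal states whose span has energy at most ten. -/
theorem exists_pair (hm : 1 ≤ m) : ∃ f g : Orbs (m + 1) (3 * m) → ℝ,
    IsFermionic f ∧ IsFermionic g ∧ 0 < normSq f ∧ 0 < normSq g ∧ ∑ y, f y * g y = 0 ∧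
      ∀ b c : ℝ, energy (fun y => b * f y + c * g y) ≤ 10 * normSq (fun y => b * f y + c * g y) := by
  set a₀ : Fin (3 * m + 1) := ⟨0, by omega⟩
  set a₁ : Fin (3 * m + 1) := ⟨1, by omega⟩
  have hne : a₀ ≠ a₁ := fun e => by simp [a₀, a₁] at e
  have hpos : ∀ a : Fin (3 * m + 1), (a : ℕ) < 3 → 0 < normSq (trial (m := m) a) := fun a ha => by
    obtain ⟨y, hy⟩ := trial_ne_zero rfl ha
    exact lt_of_lt_of_le (by positivity)
      (Finset.single_le_sum (f := fun y => trial a y ^ 2) (fun y _ => sq_nonneg _) (Finset.mem_univ y))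
  refine ⟨trial a₀, trial a₁, trial_fermionic _, trial_fermionic _, hpos _ (by simp [a₀]),
    hpos _ (by simp [a₁]), Finset.sum_eq_zero fun y _ => trial_mul_eq_zero hne y, fun b c => ?_⟩
  have hN : normSq (fun y : Orbs (m + 1) (3 * m) => b * trial a₀ y + c * trial a₁ y)
      = b ^ 2 * normSq (trial (m := m) a₀) + c ^ 2 * normSq (trial (m := m) a₁) := by
    simp only [normSq, Finset.mul_sum, ← Finset.sum_add_distrib]
    exact Finset.sum_congr rfl fun y _ => by
      linear_combination (2 * b * c) * trial_mul_eq_zero hne y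
  have hE : energy (fun y : Orbs (m + 1) (3 * m) => b * trial a₀ y + c * trial a₁ y)
      = b ^ 2 * energy (trial (m := m) a₀) + c ^ 2 * energy (trial (m := m) a₁) := by
    simp only [energy, Finset.mul_sum, ← Finset.sum_add_distrib]
    refine Finset.sum_congr rfl fun i _ => Finset.sum_congr rfl fun j _ => ?_
    by_cases hij : i < j
    · simp only [if_pos hij, Finset.mul_sum, ← Finset.sum_add_distrib]
      refine Finset.sum_congr rfl fun s _ => Finset.sum_congr rfl fun x _ => ?_
      have hamp : amp (fun y : Orbs (m + 1) (3 * m) => b * trial a₀ y + c * trial a₁ y) i j s x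
          = b * amp (trial a₀) i j s x + c * amp (trial a₁) i j s x := by
        simp only [amp, Finset.mul_sum, ← Finset.sum_add_distrib]
        exact Finset.sum_congr rfl fun k _ => Finset.sum_congr rfl fun l _ => by ring
      split_ifs
      · rw [hamp]
        linear_combination (2 * b * c / pairNorm (3 * m) s) * amp_trial_mul_eq_zero hne i j hij.ne s x
      · ring
    · simp [hij]
  rw [hN, hE]
  nlinarith [mul_le_mul_of_nonneg_left (energy_trial_le (m := m) rfl (a := a₀) (by simp [a₀])) (sq_nonneg b),
    mul_le_mul_of_nonneg_left (energy_trial_le (m := m) rfl (a := a₁) (by simp [a₁])) (sq_nonneg c)]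

end Vale.Agent.P359.Upper
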